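import Mathlib

/-!
Torus packets in the space of covolume one lattices, in column convention:
the coset `gΓ` corresponds to the lattice `g ℤⁿ`.
-/

open Matrix
open scoped MatrixGroups

namespace Vale.Agent.P007

/-- `SL_n(ℤ)` inside `SL_n(ℝ)`. -/
def Gam (n : ℕ) : Subgroup (SpecialLinearGroup (Fin n) ℝ) :=
  (SpecialLinearGroup.map (n := Fin n) (Int.castRingHom ℝ)).range

/-- The space of covolume one lattices in `ℝⁿ`, as `SL_n(ℝ) / SL_n(ℤ)`. -/
abbrev Latt (n : ℕ) : Type := SpecialLinearGroup (Fin n) ℝ ⧸ Gam n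

/-- The lattice `g ℤⁿ ⊆ ℝⁿ` attached to the coset `g SL_n(ℤ)`. -/
def latticeSet {n : ℕ} (x : Latt n) : Set (Fin n → ℝ) :=
  {v | ∃ g : SpecialLinearGroup (Fin n) ℝ, (g : Latt n) = x ∧
    ∃ m : Fin n → ℤ, v = (g : Matrix (Fin n) (Fin n) ℝ) *ᵥ fun j => (m j : ℝ)}

/-- The union of the orbits of the packet of `(O, σ)`: the points whose lattice is
`diag(u) σ(I)` for an invertible fractional `O`-ideal `I` and some `u` with no zero entry. -/
def packetSet {n : ℕ} {K : Type*} [Field K] (σ : Fin n → (K →+* ℝ)) (O : Subring K) :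
    Set (Latt n) :=
  {x | ∃ I : FractionalIdeal (nonZeroDivisors O) K, IsUnit I ∧
    ∃ u : Fin n → ℝ, (∀ j, u j ≠ 0) ∧
      latticeSet x = (fun a j => u j * σ j a) '' {a : K | a ∈ I}}

end Vale.Agent.P007
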