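import Mathlib

/-!
For `a, b ≥ 2`: a fixed real abelian field of degree `a` and infinitely many totally real fields
of degree `a b` containing it, with discriminants tending to infinity.
-/

open IntermediateField Module NumberField Filter Topology

namespace Vale.Agent.P007

/-- An intermediate field that is Galois over the base. -/
def GalSub {F E : Type*} [Field F] [Field E] [Algebra F E] (L : IntermediateField F E) : Prop :=
  IsGalois F L

lemma GalSub.gal {F E : Type*} [Field F] [Field E] [Algebra F E] {L : IntermediateField F E}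
    (h : GalSub L) : IsGalois F L := h

lemma GalSub.normal {F E : Type*} [Field F] [Field E] [Algebra F E] {L : IntermediateField F E}
    (h : GalSub L) : Normal F L := h.gal.to_normal

lemma galSub_lift_fixedField {F E : Type*} [Field F] [Field E] [Algebra F E]
    (C : IntermediateField F E) [FiniteDimensional F C] [IsGalois F C]
    (H : Subgroup Gal(C/F)) [H.Normal] :
    GalSub (IntermediateField.lift (IntermediateField.fixedField H)) := by
  have : IsGalois F (IntermediateField.fixedField H) :=
    IsGalois.of_fixedField_normal_subgroup H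
  exact IsGalois.of_algEquiv (liftAlgEquiv (IntermediateField.fixedField H))

lemma galSub_sup_normal {F E : Type*} [Field F] [Field E] [Algebra F E]
    {A B : IntermediateField F E} (hA : GalSub A) (hB : GalSub B) :
    Normal F (A ⊔ B : IntermediateField F E) :=
  have := hA.normal
  have := hB.normal
  inferInstance

/-- The `q`th cyclotomic subfield of `ℂ`. -/
noncomputable def cyc (q : ℕ) : IntermediateField ℚ ℂ :=
  IntermediateField.adjoin ℚ {Complex.exp (2 * Real.pi * Complex.I / q)}

lemma cyc_ext (q : ℕ) [NeZero q] : IsCyclotomicExtension {q} ℚ (cyc q) := by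
  have hζ := Complex.isPrimitiveRoot_exp q (NeZero.ne q)
  have hint : IsIntegral ℚ (Complex.exp (2 * Real.pi * Complex.I / q)) :=
    (hζ.isIntegral (Nat.pos_of_ne_zero (NeZero.ne q))).tower_top
  change IsCyclotomicExtension {q} ℚ
    (IntermediateField.adjoin ℚ {Complex.exp (2 * Real.pi * Complex.I / q)}).toSubalgebra
  rw [IntermediateField.adjoin_simple_toSubalgebra_of_isAlgebraic hint.isAlgebraic]
  exact hζ.adjoin_isCyclotomicExtension ℚ

lemma cyc_inf (p q : ℕ) (hp : p.Prime) (hq : q.Prime) (h : p ≠ q) : cyc p ⊓ cyc q = ⊥ := by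
  have : Fact p.Prime := ⟨hp⟩
  have : Fact q.Prime := ⟨hq⟩
  have := cyc_ext p
  have := cyc_ext q
  have := IsCyclotomicExtension.finiteDimensional {p} ℚ (cyc p)
  have := IsCyclotomicExtension.finiteDimensional {q} ℚ (cyc q)
  have : IsGalois ℚ (cyc p) := IsCyclotomicExtension.isGalois {p} ℚ (cyc p)
  let C : IntermediateField ℚ ℂ := cyc p ⊔ cyc q
  have : NumberField C := @NumberField.mk _ _ inferInstance inferInstance
  let A : IntermediateField ℚ C := (cyc p).restrict le_sup_left
  let B : IntermediateField ℚ C := (cyc q).restrict le_sup_right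
  have eA : cyc p ≃ₐ[ℚ] A := restrictAlgEquiv le_sup_left
  have eB : cyc q ≃ₐ[ℚ] B := restrictAlgEquiv le_sup_right
  have : IsGalois ℚ A := IsGalois.of_algEquiv eA
  have hA : IsCyclotomicExtension {p} ℚ A := IsCyclotomicExtension.equiv _ _ _ eA
  have hB : IsCyclotomicExtension {q} ℚ B := IsCyclotomicExtension.equiv _ _ _ eB
  have hc : IsCoprime (discr A) (discr B) := by
    rw [IsCyclotomicExtension.Rat.discr_prime p A, IsCyclotomicExtension.Rat.discr_prime q B]
    have hu : ∀ k : ℕ, IsUnit ((-1 : ℤ) ^ k) := fun k => (isUnit_one.neg).pow k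
    rw [isCoprime_mul_unit_left_left (hu _), isCoprime_mul_unit_left_right (hu _)]
    exact (Int.isCoprime_iff_nat_coprime.2 (by simpa using (Nat.coprime_primes hp hq).2 h)).pow
  have hbot : A ⊓ B = ⊥ := (linearDisjoint_of_isGalois_isCoprime_discr C A B hc).inf_eq_bot
  have := congrArg IntermediateField.lift hbot
  have h2 := (IntermediateField.lift_inf ℚ C A B).symm.trans this
  exact (congrArg₂ (· ⊓ ·) (lift_restrict le_sup_left).symm
    (lift_restrict le_sup_right).symm).trans (h2.trans (IntermediateField.lift_bot ℚ C))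

lemma isReal_conj {q : ℕ} [NeZero q] (L : IntermediateField ℚ (cyc q))
    (hL : ∀ g : Gal(cyc q/ℚ), g * g = 1 → g ∈ L.fixingSubgroup) {x : cyc q} (hx : x ∈ L) :
    starRingEnd ℂ (x : ℂ) = x := by
  have := cyc_ext q
  have : IsGalois ℚ (cyc q) := IsCyclotomicExtension.isGalois {q} ℚ (cyc q)
  let g : Gal(cyc q/ℚ) := (Complex.conjAe.restrictScalars ℚ).restrictNormal (cyc q)
  have hg : ∀ y : cyc q, ((g y : cyc q) : ℂ) = starRingEnd ℂ (y : ℂ) := fun y =>
    AlgEquiv.restrictNormal_commutes (Complex.conjAe.restrictScalars ℚ) (cyc q) y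
  have h2 : g * g = 1 := by
    refine AlgEquiv.ext fun y => Subtype.ext ?_
    rw [AlgEquiv.mul_apply, hg, hg, starRingEnd_self_apply]
    rfl
  have h3 := (IntermediateField.mem_fixingSubgroup_iff _ _).1 (hL g h2) x hx
  rw [← hg, h3]

lemma exists_real_subfield (b q : ℕ) (_hb : 0 < b) (hq : q.Prime) (hbq : q ≡ 1 [MOD 2 * b]) :
    ∃ L : IntermediateField ℚ ℂ, L ≤ cyc q ∧ finrank ℚ L = b ∧ GalSub L ∧
      ∀ x ∈ L, starRingEnd ℂ x = x := by
  classical
  have : Fact q.Prime := ⟨hq⟩
  have := cyc_ext q
  have : IsGalois ℚ (cyc q) := IsCyclotomicExtension.isGalois {q} ℚ (cyc q)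
  have := IsCyclotomicExtension.finiteDimensional {q} ℚ (cyc q)
  obtain ⟨c, hc⟩ : 2 * b ∣ q - 1 := (Nat.modEq_iff_dvd' hq.one_le).1 hbq.symm
  have : NumberField (cyc q) := @NumberField.mk _ _ inferInstance inferInstance
  let e : Gal(cyc q/ℚ) ≃* (ZMod q)ˣ := IsCyclotomicExtension.Rat.galEquivZMod q (cyc q)
  let H : Subgroup Gal(cyc q/ℚ) :=
    (powMonoidHom (2 * c) : (ZMod q)ˣ →* (ZMod q)ˣ).ker.comap e.toMonoidHom
  have hHn : H.Normal := inferInstance
  have hmem : ∀ g : Gal(cyc q/ℚ), g ∈ H ↔ (e g) ^ (2 * c) = 1 := fun g => Iff.rfl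
  have hcard : Nat.card H = 2 * c := by
    have h1 : Nat.card H = Nat.card (powMonoidHom (2 * c) : (ZMod q)ˣ →* (ZMod q)ˣ).ker :=
      Nat.card_congr (e.toEquiv.subtypeEquiv fun g => Iff.rfl)
    rw [h1, IsCyclic.card_powMonoidHom_ker, Nat.card_eq_fintype_card, ZMod.card_units, hc]
    exact Nat.gcd_eq_right ⟨b, by ring⟩
  let L : IntermediateField ℚ (cyc q) := IntermediateField.fixedField H
  have hfix : L.fixingSubgroup = H := IntermediateField.fixingSubgroup_fixedField H
  have hdeg : finrank ℚ L = b := by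
    have h1 : finrank L (cyc q) = 2 * c := by
      rw [IntermediateField.finrank_fixedField_eq_card, hcard]
    have h2 : finrank ℚ (cyc q) = q - 1 := by
      rw [IsCyclotomicExtension.finrank (cyc q)
        (Polynomial.cyclotomic.irreducible_rat hq.pos), Nat.totient_prime hq]
    have h3 := Module.finrank_mul_finrank ℚ L (cyc q)
    rw [h1, h2, hc] at h3
    have hc0 : 0 < 2 * c := by
      rcases Nat.eq_zero_or_pos c with h | h
      · subst h; have := hq.two_le; omega
      · omega
    exact Nat.eq_of_mul_eq_mul_right hc0 (h3.trans (by ring))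
  refine ⟨IntermediateField.lift L, IntermediateField.lift_le L,
    ((liftAlgEquiv L).toLinearEquiv.finrank_eq).symm.trans hdeg, ?_, ?_⟩
  · have hg : GalSub (cyc q) := IsCyclotomicExtension.isGalois {q} ℚ (cyc q)
    have := hg.gal
    exact @galSub_lift_fixedField _ _ _ _ _ (cyc q) _ _ H hHn
  · intro x hx
    obtain ⟨y, hy, rfl⟩ := hx
    refine isReal_conj L (fun g hg => ?_) hy
    rw [hfix, hmem, pow_mul, pow_two, ← map_mul, hg, map_one, one_pow]

theorem exists_fields (a b : ℕ) (ha : 2 ≤ a) (hb : 2 ≤ b) :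
    ∃ (K : ℕ → IntermediateField ℚ ℂ) (hK : ∀ i, NumberField (K i)) (α : ℂ) (P : Polynomial ℤ),
      P.Monic ∧
      (∀ i, finrank ℚ (K i) = a * b ∧ (∀ φ : K i →+* ℂ, ComplexEmbedding.IsReal φ) ∧
        ∃ β : K i, (β : ℂ) = α ∧ IsIntegral ℤ β ∧ Polynomial.aeval β P = 0 ∧
          β ∉ Set.range (algebraMap ℚ (K i))) ∧
      Tendsto (fun i => |@NumberField.discr (K i) _ (hK i)|) atTop atTop := by
  classical
  obtain ⟨p, hp, -, hpa⟩ := Nat.exists_prime_gt_modEq_one 0 (show 2 * a ≠ 0 by omega)
  obtain ⟨F, hFp, hFdeg, hFgal, hFreal⟩ := exists_real_subfield a p (by omega) hp hpa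
  have hq : ∀ i : ℕ, ∃ q, q.Prime ∧ p + i < q ∧ q ≡ 1 [MOD 2 * b] := fun i =>
    Nat.exists_prime_gt_modEq_one (p + i) (show 2 * b ≠ 0 by omega)
  choose q hqp hqi hqb using hq
  have hL : ∀ i, ∃ L : IntermediateField ℚ ℂ, L ≤ cyc (q i) ∧ finrank ℚ L = b ∧ GalSub L ∧
      ∀ x ∈ L, starRingEnd ℂ x = x := fun i =>
    exists_real_subfield b (q i) (by omega) (hqp i) (hqb i)
  choose L hLq hLdeg hLgal hLreal using hL
  have : FiniteDimensional ℚ F := Module.finite_of_finrank_pos (by omega)
  have hLfin : ∀ i, FiniteDimensional ℚ (L i) := fun i =>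
    Module.finite_of_finrank_pos (by rw [hLdeg i]; omega)
  have hdeg : ∀ i, finrank ℚ (F ⊔ L i : IntermediateField ℚ ℂ) = a * b := fun i => by
    have := hLfin i
    have hinf : F ⊓ L i = ⊥ := le_bot_iff.1
      ((inf_le_inf hFp (hLq i)).trans (cyc_inf p (q i) hp (hqp i) (by have := hqi i; omega)).le)
    have := hFgal.gal
    rw [(LinearDisjoint.of_inf_eq_bot hinf).finrank_sup, hFdeg, hLdeg i]
  have hKfin : ∀ i, FiniteDimensional ℚ (F ⊔ L i : IntermediateField ℚ ℂ) := fun i =>
    Module.finite_of_finrank_pos (by rw [hdeg i]; positivity)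
  -- an irrational algebraic integer in `F`
  have : NumberField F := @NumberField.mk _ _ inferInstance inferInstance
  obtain ⟨γ, hγi, hγ⟩ : ∃ γ : F, IsIntegral ℤ γ ∧ γ ∉ Set.range (algebraMap ℚ F) := by
    by_contra hcon
    push Not at hcon
    have h1 : ∀ x : F, x ∈ Set.range (algebraMap ℚ F) := by
      intro x
      have hxs : x ∈ Submodule.span ℚ (Set.range (integralBasis F)) := by
        rw [(integralBasis F).span_eq]; trivial
      have hle : Submodule.span ℚ (Set.range (integralBasis F))
          ≤ Subalgebra.toSubmodule (⊥ : Subalgebra ℚ F) := by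
        refine Submodule.span_le.2 ?_
        rintro _ ⟨j, rfl⟩
        rw [integralBasis_apply]
        exact Algebra.mem_bot.2 (hcon _ (RingOfIntegers.isIntegral_coe _))
      exact Algebra.mem_bot.1 (hle hxs)
    have h2 : (⊥ : Subalgebra ℚ F) = ⊤ := eq_top_iff.2 fun x _ => Algebra.mem_bot.2 (h1 x)
    have := Subalgebra.bot_eq_top_iff_finrank_eq_one.1 h2
    omega
  refine ⟨fun i => F ⊔ L i, fun i => @NumberField.mk _ _ inferInstance (hKfin i), (γ : ℂ),
    minpoly ℤ γ, minpoly.monic hγi, fun i => ⟨hdeg i, ?_, ?_⟩, ?_⟩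
  · intro φ
    refine ComplexEmbedding.isReal_iff.2 (RingHom.ext fun x => ?_)
    have h3 := galSub_sup_normal hFgal (hLgal i)
    let ψ : (F ⊔ L i : IntermediateField ℚ ℂ) →ₐ[ℚ] ℂ := φ.toRatAlgHom
    have hmem : φ x ∈ (F ⊔ L i : IntermediateField ℚ ℂ) := by
      have h := AlgHom.fieldRange_of_normal ψ
      rw [← h]
      exact ⟨x, rfl⟩
    have hreal : ∀ y ∈ (F ⊔ L i : IntermediateField ℚ ℂ), starRingEnd ℂ y = y := by
      let cj : ℂ →ₐ[ℚ] ℂ := (Complex.conjAe.restrictScalars ℚ).toAlgHom
      let R : Subfield ℂ :=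
        RingHom.eqLocusField (starRingEnd ℂ) (RingHom.id ℂ)
      let R' : IntermediateField ℚ ℂ := R.toIntermediateField fun r => by
        change starRingEnd ℂ (algebraMap ℚ ℂ r) = algebraMap ℚ ℂ r
        rw [eq_ratCast, map_ratCast]
      exact fun y hy => (sup_le (fun z hz => hFreal z hz) (fun z hz => hLreal i z hz) :
        F ⊔ L i ≤ R') hy
    exact hreal _ hmem
  · refine ⟨IntermediateField.inclusion le_sup_left γ, rfl, hγi.map
      ((IntermediateField.inclusion (le_sup_left : F ≤ F ⊔ L i)).restrictScalars ℤ), ?_, ?_⟩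
    · rw [show (IntermediateField.inclusion (le_sup_left : F ≤ F ⊔ L i)) γ
        = ((IntermediateField.inclusion (le_sup_left : F ≤ F ⊔ L i)).restrictScalars ℤ) γ from rfl,
        Polynomial.aeval_algHom_apply, minpoly.aeval, map_zero]
    · rintro ⟨r, hr⟩
      exact hγ ⟨r, (IntermediateField.inclusion (le_sup_left : F ≤ F ⊔ L i)).injective
        (((IntermediateField.inclusion (le_sup_left : F ≤ F ⊔ L i)).commutes r).trans hr)⟩
  · rw [tendsto_atTop]
    intro B
    have hfin := NumberField.finite_of_discr_bdd ℂ B.natAbs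
    by_contra hcon
    rw [not_eventually] at hcon
    refine Nat.frequently_atTop_iff_infinite.1 hcon ?_
    let f : ℕ → {M : IntermediateField ℚ ℂ // FiniteDimensional ℚ M} :=
      fun i => ⟨F ⊔ L i, hKfin i⟩
    refine (Set.Finite.preimage' hfin ?_).subset
      (s := f ⁻¹' _) (fun i hi => ?_)
    · rintro ⟨M, hM⟩ -
      have : FiniteDimensional ℚ M := hM
      have : Finite (IntermediateField ℚ M) :=
        Field.finite_intermediateField_of_exists_primitive_element ℚ M
          (Field.exists_primitive_element ℚ M)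
      have hsub : f ⁻¹' {⟨M, hM⟩} ⊆ L ⁻¹' {N | N ≤ M} := by
        intro j hj
        have h1 : F ⊔ L j = M := congrArg Subtype.val (show f j = _ from hj)
        show L j ≤ M
        exact h1 ▸ le_sup_right
      refine Set.Finite.subset (Set.Finite.preimage' ?_ ?_) hsub
      · refine (Set.finite_range fun N : IntermediateField ℚ M => IntermediateField.lift N).subset ?_
        intro N hN
        exact ⟨IntermediateField.restrict hN, IntermediateField.lift_restrict hN⟩
      · intro N _
        rcases (L ⁻¹' {N}).eq_empty_or_nonempty with h | ⟨j, hj⟩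
        · rw [h]; exact Set.finite_empty
        · refine (Set.finite_Iic (q j)).subset fun k hk => ?_
          have hjk : q j = q k := by
            by_contra hne
            have heq : L k = L j := (show L k = N from hk).trans (show L j = N from hj).symm
            have hbot : L j = ⊥ := le_bot_iff.1 ((le_inf (hLq j) (heq ▸ hLq k)).trans
              (cyc_inf _ _ (hqp j) (hqp k) hne).le)
            have := hLdeg j
            rw [hbot, IntermediateField.finrank_bot] at this
            omega
          have := hqi k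
          simp only [Set.mem_Iic]
          omega
    · simp only [Set.mem_preimage, Set.mem_ofPred_eq]
      push_cast
      exact (not_le.1 hi).le.trans (le_abs_self _)

end Vale.Agent.P007
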