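import Vale.Agent.P007.Space

/-!
Packets of orders containing a fixed irrational element, and nonemptiness of maximal packets.
-/

open Matrix Module Polynomial NumberField
open scoped MatrixGroups

namespace Vale.Agent.P007

variable {n : ℕ} {K : Type*} [Field K]

lemma packet_stable (σ : Fin n → (K →+* ℝ)) (O : Subring K) {α : K} (hα : α ∈ O) {x : Latt n}
    (hx : x ∈ packetSet σ O) : x ∈ stableSet (fun j => σ j α) := by
  obtain ⟨I, -, u, -, hI⟩ := hx
  intro v hv
  rw [hI] at hv ⊢
  obtain ⟨a, ha, rfl⟩ := hv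
  refine ⟨α * a, ?_, ?_⟩
  · exact (I : Submodule O K).smul_mem (⟨α, hα⟩ : O) ha
  · funext j
    rw [mulVec_diagonal]
    simp only [map_mul]
    ring

/-- The embedding into `ℂ` attached to a real embedding. -/
noncomputable def cemb [Algebra ℚ K] (φ : K →+* ℝ) : K →ₐ[ℚ] ℂ :=
  RingHom.toRatAlgHom (Complex.ofRealHom.comp φ)

lemma cemb_apply [Algebra ℚ K] (φ : K →+* ℝ) (x : K) : cemb φ x = (φ x : ℂ) := rfl

lemma cemb_bijective [NumberField K] (σ : Fin n → (K →+* ℝ)) (hn : finrank ℚ K = n)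
    (hσ : Function.Injective σ) : Function.Bijective (fun j => cemb (σ j)) := by
  rw [Fintype.bijective_iff_injective_and_card]
  refine ⟨fun i j h => hσ (RingHom.ext fun x => ?_), by rw [Fintype.card_fin, AlgHom.card, hn]⟩
  exact Complex.ofReal_injective (by simpa [cemb_apply] using DFunLike.congr_fun h x)

lemma nonconst [NumberField K] (σ : Fin n → (K →+* ℝ)) (hn : finrank ℚ K = n)
    (hσ : Function.Injective σ) {α : K} (hα : α ∉ Set.range (algebraMap ℚ K)) :
    ∃ i j, σ i α ≠ σ j α := by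
  by_contra hcon
  push Not at hcon
  have hint : IsIntegral ℚ α := IsIntegral.of_finite ℚ α
  have hroots : (minpoly ℚ α).rootSet ℂ = Set.range (fun j => (σ j α : ℂ)) := by
    rw [← Algebra.IsAlgebraic.range_eval_eq_rootSet_minpoly ℂ α]
    ext z
    constructor
    · rintro ⟨ψ, rfl⟩
      obtain ⟨j, hj⟩ := (cemb_bijective σ hn hσ).2 ψ
      exact ⟨j, DFunLike.congr_fun hj α⟩
    · rintro ⟨j, rfl⟩
      exact ⟨cemb (σ j), rfl⟩
  have hsub : ((minpoly ℚ α).rootSet ℂ).Subsingleton := by
    rw [hroots]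
    rintro _ ⟨i, rfl⟩ _ ⟨j, rfl⟩
    simp only [hcon i j]
  have hcard : Fintype.card ((minpoly ℚ α).rootSet ℂ) ≤ 1 :=
    Fintype.card_le_one_iff_subsingleton.2 hsub.coe_sort
  rw [card_rootSet_eq_natDegree (minpoly.irreducible hint).separable (IsAlgClosed.splits _)]
    at hcard
  have h1 : (minpoly ℚ α).natDegree = 1 := le_antisymm hcard (minpoly.natDegree_pos hint)
  exact hα ((minpoly.natDegree_eq_one_iff).1 h1)

/-- The packet of the maximal order is nonempty. -/
lemma packet_maximal_nonempty [NumberField K] (σ : Fin n → (K →+* ℝ)) (hn : finrank ℚ K = n)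
    (hσ : Function.Injective σ) (h0 : 0 < n) :
    (packetSet σ (integralClosure ℤ K).toSubring).Nonempty := by
  classical
  have hcard : Fintype.card (Free.ChooseBasisIndex ℤ (𝓞 K)) = n := by
    rw [← finrank_eq_card_chooseBasisIndex, RingOfIntegers.rank, hn]
  let b := (integralBasis K).reindex (Fintype.equivFinOfCardEq hcard)
  let M : Matrix (Fin n) (Fin n) ℝ := of fun j k => σ j (b k)
  have hM : M.det ≠ 0 := by
    intro hd
    have h := Algebra.discr_eq_det_embeddingsMatrixReindex_pow_two ℚ ℂ b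
      (Equiv.ofBijective _ (cemb_bijective σ hn hσ))
    have hMC : (Algebra.embeddingsMatrixReindex ℚ ℂ b
        (Equiv.ofBijective _ (cemb_bijective σ hn hσ))).det = (M.det : ℂ) := by
      rw [show (M.det : ℂ) = Complex.ofRealHom M.det from rfl, RingHom.map_det, ← det_transpose]
      congr 1
    rw [hMC, hd, Complex.ofReal_zero, zero_pow two_ne_zero, map_eq_zero] at h
    exact Algebra.discr_not_zero_of_basis ℚ b h
  let u : Fin n → ℝ := fun j => if j = ⟨0, h0⟩ then (M.det)⁻¹ else 1
  have hdet : (diagonal u * M).det = 1 := by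
    rw [det_mul, det_diagonal]
    simp only [u, Finset.prod_ite_eq', Finset.mem_univ, if_true]
    exact inv_mul_cancel₀ hM
  let g : SpecialLinearGroup (Fin n) ℝ := ⟨diagonal u * M, hdet⟩
  have hu : ∀ j, u j ≠ 0 := fun j => by
    simp only [u]
    split_ifs
    · exact inv_ne_zero hM
    · exact one_ne_zero
  have hvec : ∀ c : Fin n → ℤ, (g : Matrix (Fin n) (Fin n) ℝ) *ᵥ (fun k => (c k : ℝ))
      = fun j => u j * σ j (∑ k, c k • b k) := by
    intro c
    change (diagonal u * M) *ᵥ _ = _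
    rw [← mulVec_mulVec]
    funext j
    rw [mulVec_diagonal, map_sum]
    simp only [mulVec, dotProduct, M, of_apply, zsmul_eq_mul, map_mul, map_intCast, mul_comm]
  have hone : ∀ a : K, a ∈ (1 : FractionalIdeal
      (nonZeroDivisors (integralClosure ℤ K).toSubring) K) ↔
      a ∈ Submodule.span ℤ (Set.range b) := by
    intro a
    rw [FractionalIdeal.mem_one_iff, Basis.range_reindex, mem_span_integralBasis]
    constructor
    · rintro ⟨x, rfl⟩; exact ⟨⟨x.1, x.2⟩, rfl⟩
    · rintro ⟨x, rfl⟩; exact ⟨⟨x.1, x.2⟩, rfl⟩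
  refine ⟨(g : Latt n), 1, isUnit_one, u, hu, Set.ext fun v => ?_⟩
  rw [mem_latticeSet_mk]
  constructor
  · rintro ⟨c, rfl⟩
    exact ⟨∑ k, c k • b k, (hone _).2 (Submodule.sum_mem _ fun k _ =>
      Submodule.smul_mem _ _ (Submodule.subset_span ⟨k, rfl⟩)), (hvec c).symm⟩
  · rintro ⟨a, ha, rfl⟩
    obtain ⟨c, rfl⟩ := (Submodule.mem_span_range_iff_exists_fun ℤ).1 ((hone a).1 ha)
    exact ⟨c, (hvec c).symm⟩

end Vale.Agent.P007
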