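import Vale.Agent.P007.Defs

/-!
A test function vanishing on every lattice stable under one of finitely many diagonal matrices.
-/

open Matrix MeasureTheory Filter Topology
open scoped MatrixGroups

namespace Vale.Agent.P007

variable {n : ℕ}

lemma isClosed_Gam (n : ℕ) : IsClosed (Gam n : Set (SpecialLinearGroup (Fin n) ℝ)) :=
  (Int.isClosedEmbedding_coe_real.specialLinearGroup_map
    (f := Int.castRingHom ℝ)).isClosed_range

instance instClosedGam (n : ℕ) : IsClosed (Gam n : Set (SpecialLinearGroup (Fin n) ℝ)) :=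
  isClosed_Gam n

instance instLCSL (n : ℕ) : LocallyCompactSpace (SpecialLinearGroup (Fin n) ℝ) :=
  haveI : LocallyCompactSpace (Matrix (Fin n) (Fin n) ℝ) :=
    inferInstanceAs (LocallyCompactSpace (Fin n → Fin n → ℝ))
  SpecialLinearGroup.isClosedEmbedding_val.locallyCompactSpace

instance instSCSL (n : ℕ) : SecondCountableTopology (SpecialLinearGroup (Fin n) ℝ) :=
  haveI : SecondCountableTopology (Matrix (Fin n) (Fin n) ℝ) :=
    inferInstanceAs (SecondCountableTopology (Fin n → Fin n → ℝ))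
  SpecialLinearGroup.isClosedEmbedding_val.isEmbedding.secondCountableTopology

lemma mem_latticeSet_mk (g : SpecialLinearGroup (Fin n) ℝ) (v : Fin n → ℝ) :
    v ∈ latticeSet (g : Latt n) ↔
      ∃ m : Fin n → ℤ, v = (g : Matrix (Fin n) (Fin n) ℝ) *ᵥ fun j => (m j : ℝ) := by
  refine ⟨?_, fun h => ⟨g, rfl, h⟩⟩
  rintro ⟨g', hg', m, rfl⟩
  obtain ⟨γ, hγ⟩ := QuotientGroup.eq.1 hg'.symm
  refine ⟨(γ : Matrix (Fin n) (Fin n) ℤ) *ᵥ m, ?_⟩
  have h1 : g' = g * SpecialLinearGroup.map (Int.castRingHom ℝ) γ := by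
    rw [hγ]; group
  have h2 : (fun j => (((γ : Matrix (Fin n) (Fin n) ℤ) *ᵥ m) j : ℝ))
      = (γ : Matrix (Fin n) (Fin n) ℤ).map (Int.castRingHom ℝ) *ᵥ (fun j => (m j : ℝ)) := by
    funext j
    exact RingHom.map_mulVec (Int.castRingHom ℝ) _ _ _
  rw [h1, h2, mulVec_mulVec]
  rfl

/-- Lattices stable under the diagonal matrix with entries `r`. -/
def stableSet (r : Fin n → ℝ) : Set (Latt n) :=
  {x | ∀ v ∈ latticeSet x, diagonal r *ᵥ v ∈ latticeSet x}

/-- Real matrices with integer entries. -/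
def intMats (n : ℕ) : Set (Matrix (Fin n) (Fin n) ℝ) :=
  {A | ∀ i j, A i j ∈ Set.range ((↑) : ℤ → ℝ)}

lemma mem_stableSet_mk (g : SpecialLinearGroup (Fin n) ℝ) (r : Fin n → ℝ) :
    (g : Latt n) ∈ stableSet r ↔
      ((g⁻¹ : SpecialLinearGroup (Fin n) ℝ) : Matrix (Fin n) (Fin n) ℝ) * diagonal r *
        (g : Matrix (Fin n) (Fin n) ℝ) ∈ intMats n := by
  have hinv : (g : Matrix (Fin n) (Fin n) ℝ) *
      ((g⁻¹ : SpecialLinearGroup (Fin n) ℝ) : Matrix (Fin n) (Fin n) ℝ) = 1 := by
    exact congrArg Subtype.val (mul_inv_cancel g)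
  have hinv' : ((g⁻¹ : SpecialLinearGroup (Fin n) ℝ) : Matrix (Fin n) (Fin n) ℝ) *
      (g : Matrix (Fin n) (Fin n) ℝ) = 1 := by
    exact congrArg Subtype.val (inv_mul_cancel g)
  constructor
  · intro h i j
    obtain ⟨m, hm⟩ := (mem_latticeSet_mk g _).1
      (h ((g : Matrix (Fin n) (Fin n) ℝ) *ᵥ fun k => ((Pi.single j 1 : Fin n → ℤ) k : ℝ))
        ((mem_latticeSet_mk g _).2 ⟨Pi.single j 1, rfl⟩))
    refine ⟨m i, ?_⟩
    have h1 := congrArg
      (fun v => ((g⁻¹ : SpecialLinearGroup (Fin n) ℝ) : Matrix (Fin n) (Fin n) ℝ) *ᵥ v) hm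
    simp only [mulVec_mulVec, hinv', one_mulVec, ← Matrix.mul_assoc] at h1
    have h2 : (fun k => ((Pi.single j 1 : Fin n → ℤ) k : ℝ)) = Pi.single j 1 := by
      funext k
      by_cases hk : k = j
      · subst hk; simp
      · simp [hk]
    rw [h2] at h1
    have h3 := congrFun h1 i
    rw [mulVec_single_one] at h3
    exact h3.symm
  · intro h v hv
    obtain ⟨m, rfl⟩ := (mem_latticeSet_mk g v).1 hv
    choose Z hZ using h
    refine (mem_latticeSet_mk g _).2 ⟨fun i => ∑ j, Z i j * m j, ?_⟩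
    have h1 : (fun i => ((∑ j, Z i j * m j : ℤ) : ℝ))
        = (((g⁻¹ : SpecialLinearGroup (Fin n) ℝ) : Matrix (Fin n) (Fin n) ℝ) * diagonal r *
          (g : Matrix (Fin n) (Fin n) ℝ)) *ᵥ fun j => (m j : ℝ) := by
      funext i
      simp only [mulVec, dotProduct, Int.cast_sum, Int.cast_mul]
      exact Finset.sum_congr rfl fun j _ => by rw [hZ]
    rw [h1, mulVec_mulVec, mulVec_mulVec, ← Matrix.mul_assoc, ← Matrix.mul_assoc, hinv,
      Matrix.one_mul]

lemma isClosed_stableSet (r : Fin n → ℝ) : IsClosed (stableSet r) := by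
  rw [← (QuotientGroup.isQuotientMap_mk (Gam n)).isClosed_preimage]
  have h : ((↑) : SpecialLinearGroup (Fin n) ℝ → Latt n) ⁻¹' stableSet r
      = (fun g : SpecialLinearGroup (Fin n) ℝ =>
          ((g⁻¹ : SpecialLinearGroup (Fin n) ℝ) : Matrix (Fin n) (Fin n) ℝ) * diagonal r *
          (g : Matrix (Fin n) (Fin n) ℝ)) ⁻¹' intMats n := by
    ext g; exact mem_stableSet_mk g r
  rw [h]
  refine IsClosed.preimage ?_ ?_
  · have hv : Continuous (fun g : SpecialLinearGroup (Fin n) ℝ =>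
        (g : Matrix (Fin n) (Fin n) ℝ)) := SpecialLinearGroup.isClosedEmbedding_val.continuous
    exact ((hv.comp continuous_inv).mul continuous_const).mul hv
  · have : intMats n = ⋂ i, ⋂ j, (fun A : Matrix (Fin n) (Fin n) ℝ => A i j) ⁻¹'
        Set.range ((↑) : ℤ → ℝ) := by ext A; simp [intMats]
    rw [this]
    exact isClosed_iInter fun i => isClosed_iInter fun j =>
      Int.isClosedEmbedding_coe_real.isClosed_range.preimage
        ((continuous_apply j).comp (continuous_apply i))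

lemma exists_not_stable (S : Set (Fin n → ℝ)) (hS : S.Finite)
    (hr : ∀ r ∈ S, ∃ i j, r i ≠ r j) :
    ∃ g : SpecialLinearGroup (Fin n) ℝ, ∀ r ∈ S, (g : Latt n) ∉ stableSet r := by
  rcases Nat.eq_zero_or_pos n with hn | hn
  · subst hn
    exact ⟨1, fun r h => (hr r h).choose.elim0⟩
  set z : Fin n := ⟨0, hn⟩ with hz
  obtain ⟨t, ht⟩ : ∃ t : ℝ, t ∉ ⋃ r ∈ S, ⋃ j : Fin n, ⋃ k : ℤ, {(k : ℝ) / (r z - r j)} := by
    have hc : (⋃ r ∈ S, ⋃ j : Fin n, ⋃ k : ℤ, ({(k : ℝ) / (r z - r j)} : Set ℝ)).Countable :=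
      hS.countable.biUnion fun r _ => Set.countable_iUnion fun j => Set.countable_iUnion
        fun k => Set.countable_singleton _
    by_contra hcon
    push Not at hcon
    exact Cardinal.not_countable_real (by rwa [Set.eq_univ_of_forall hcon] at hc)
  set N : Matrix (Fin n) (Fin n) ℝ := of fun i j => if i = z ∧ j ≠ z then t else 0 with hN
  have hNsq : N * N = 0 := by
    ext i j
    rw [Matrix.mul_apply, Matrix.zero_apply]
    refine Finset.sum_eq_zero fun k _ => ?_
    simp only [hN, of_apply]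
    by_cases hk : k = z <;> simp [hk]
  have hdet : (1 + N).det = 1 := by
    rw [det_of_isUpperTriangular]
    · refine Finset.prod_eq_one fun i _ => ?_
      simp [hN]
    · intro i j hij
      simp only [id] at hij
      have h1 : i ≠ z := fun h => by subst h; exact absurd hij (not_lt.2 (Nat.zero_le _))
      simp [hN, h1, one_apply_ne hij.ne']
  let g : SpecialLinearGroup (Fin n) ℝ := ⟨1 + N, hdet⟩
  have hginv : ((g⁻¹ : SpecialLinearGroup (Fin n) ℝ) : Matrix (Fin n) (Fin n) ℝ) = 1 - N := by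
    have h1 : (1 - N) * (1 + N) = 1 := by rw [sub_mul, mul_add, mul_add, hNsq]; simp
    have h2 : ((g⁻¹ : SpecialLinearGroup (Fin n) ℝ) : Matrix (Fin n) (Fin n) ℝ) * (1 + N) = 1 := by
      change ((g⁻¹ : SpecialLinearGroup (Fin n) ℝ) : Matrix (Fin n) (Fin n) ℝ) *
        (g : Matrix (Fin n) (Fin n) ℝ) = 1
      exact congrArg Subtype.val (inv_mul_cancel g)
    have h3 : (1 + N) * (1 - N) = 1 := by rw [add_mul, mul_sub, mul_sub, hNsq]; simp
    calc ((g⁻¹ : SpecialLinearGroup (Fin n) ℝ) : Matrix (Fin n) (Fin n) ℝ)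
        = ((g⁻¹ : SpecialLinearGroup (Fin n) ℝ) : Matrix (Fin n) (Fin n) ℝ) *
            ((1 + N) * (1 - N)) := by rw [h3, mul_one]
      _ = 1 - N := by rw [← mul_assoc, h2, one_mul]
  refine ⟨g, fun r hrS hst => ?_⟩
  obtain ⟨i, j, hij⟩ := hr r hrS
  obtain ⟨j, hj⟩ : ∃ j, r j ≠ r z := by
    by_contra hcon
    push Not at hcon
    exact hij ((hcon i).trans (hcon j).symm)
  have hjz : j ≠ z := fun h => hj (by rw [h])
  obtain ⟨k, hk⟩ := (mem_stableSet_mk g r).1 hst z j
  rw [hginv] at hk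
  have hval : ((1 - N) * diagonal r * (g : Matrix (Fin n) (Fin n) ℝ)) z j
      = (r z - r j) * t := by
    change (((1 - N) * diagonal r * (1 + N)) : Matrix (Fin n) (Fin n) ℝ) z j = _
    rw [mul_add, mul_one, Matrix.add_apply, mul_diagonal, Matrix.sub_apply, one_apply_ne hjz.symm,
      Matrix.mul_apply, Finset.sum_eq_single z]
    · rw [mul_diagonal, Matrix.sub_apply, one_apply_eq]
      simp [hN, hjz]
      ring
    · intro l _ hl
      simp [hN, hl]
    · simp
  rw [hval] at hk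
  refine ht ?_
  simp only [Set.mem_iUnion, Set.mem_singleton_iff]
  refine ⟨r, hrS, j, k, ?_⟩
  rw [hk, eq_div_iff (sub_ne_zero.2 (Ne.symm hj))]
  ring

/-- A test function vanishing on the given stable lattices. -/
lemma exists_test (S : Set (Fin n → ℝ)) (hS : S.Finite) (hr : ∀ r ∈ S, ∃ i j, r i ≠ r j) :
    ∃ f : Latt n → ℝ, Continuous f ∧ HasCompactSupport f ∧ (∀ x, 0 ≤ f x) ∧ (∃ x, f x = 1) ∧
      ∀ r ∈ S, ∀ x ∈ stableSet r, f x = 0 := by
  obtain ⟨g, hg⟩ := exists_not_stable S hS hr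
  obtain ⟨f, h1, h0, hc, hI⟩ := exists_continuous_one_zero_of_isCompact
    (isCompact_singleton (x := (g : Latt n)))
    (hS.isClosed_biUnion fun r _ => isClosed_stableSet r)
    (Set.disjoint_singleton_left.2 (by simpa using hg))
  exact ⟨f, f.continuous, hc, fun x => (hI x).1, ⟨_, h1 rfl⟩,
    fun r hrS x hx => h0 (Set.mem_biUnion hrS hx)⟩

/-- An invariant probability measure gives positive integral to a nonnegative, nonzero, compactly
supported continuous function. -/
lemma integral_pos_of_invariant [MeasurableSpace (Latt n)] [BorelSpace (Latt n)]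
    (m : Measure (Latt n)) [IsProbabilityMeasure m]
    (hm : ∀ g : SpecialLinearGroup (Fin n) ℝ, m.map (g • ·) = m)
    (f : Latt n → ℝ) (hf : Continuous f) (hc : HasCompactSupport f) (h0 : ∀ x, 0 ≤ f x)
    (h1 : ∃ x, f x = 1) : 0 < ∫ x, f x ∂m := by
  have : MeasurableConstSMul (SpecialLinearGroup (Fin n) ℝ) (Latt n) :=
    ⟨fun c => (continuous_const_smul c).measurable⟩
  have : SMulInvariantMeasure (SpecialLinearGroup (Fin n) ℝ) (Latt n) m :=
    ⟨fun c s hs => by
      conv_rhs => rw [← hm c]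
      rw [Measure.map_apply (continuous_const_smul c).measurable hs]⟩
  obtain ⟨x, hx⟩ := h1
  have hU : IsOpen (Function.support f) := hf.isOpen_support
  have hne : (Function.support f).Nonempty := ⟨x, by simp [hx]⟩
  have hpos : 0 < m (Function.support f) := by
    by_contra hzero
    rw [not_lt, nonpos_iff_eq_zero] at hzero
    have hcov : (⋃ g : SpecialLinearGroup (Fin n) ℝ, (g • ·) ⁻¹' Function.support f)
        = (Set.univ : Set (Latt n)) := by
      refine Set.eq_univ_of_forall fun y => Set.mem_iUnion.2 ?_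
      obtain ⟨g, hg⟩ := MulAction.exists_smul_eq (SpecialLinearGroup (Fin n) ℝ) y x
      exact ⟨g, by simp [hg, hx]⟩
    obtain ⟨T, hTc, hT⟩ := TopologicalSpace.isOpen_iUnion_countable
      (fun g : SpecialLinearGroup (Fin n) ℝ => (g • ·) ⁻¹' Function.support f)
      fun g => hU.preimage (continuous_const_smul g)
    have : m Set.univ = 0 := by
      rw [← hcov, ← hT]
      refine (measure_biUnion_null_iff hTc).2 fun g _ => ?_
      rw [measure_preimage_smul]
      exact hzero
    rw [measure_univ] at this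
    exact one_ne_zero this
  rw [integral_pos_iff_support_of_nonneg h0 (hf.integrable_of_hasCompactSupport hc)]
  exact hpos

end Vale.Agent.P007
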